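import Vale.Agent.P121.Marginal

/-!
An absolutely continuous marginal with finite Coulomb value and no optimal Monge plan.
-/

open MeasureTheory
open scoped ENNReal

namespace Vale.Agent.Results.P121.NoMongeMinimizer

open Vale.Agent.P121

theorem result :
    ∃ μ : Measure Space, IsProbabilityMeasure μ ∧ μ ≪ volume ∧ kantorovich μ < ⊤ ∧
      ∀ T₂ T₃ : Space → Space, Measurable T₂ → Measurable T₃ →
        μ.map T₂ = μ → μ.map T₃ = μ → kantorovich μ < mongeCost μ T₂ T₃ := by
  obtain ⟨D⟩ := exists_setup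
  exact ⟨D.mu, inferInstance, D.mu_ac, D.kantorovich_lt_top,
    fun _ _ m2 m3 h2 h3 => D.monge_strict m2 m3 h2 h3⟩

end Vale.Agent.Results.P121.NoMongeMinimizer
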